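import Vale.Agent.P267O.OA

/-! P267, frames on polydiscs: from smooth to holomorphic frames. -/

open scoped Topology ContDiff
open Filter Metric Set

noncomputable section

namespace Vale.Agent.P267

variable {v : C2 → C2 → ℂ} {r : ℝ}

theorem OD_exp {g : C2 → ℂ} {z : C2} (hg : DifferentiableAt ℝ g z) :
    dbar (fun x => Complex.exp (g x)) z = Complex.exp (g z) • dbar g z := by
  ext1 x
  simp only [ac_app, hg.hasFDerivAt.cexp.fderiv, ContinuousLinearMap.smul_apply, smul_eq_mul]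
  ring

theorem OD_loc (hv : OBun v r) {ρ : ℝ} (h2 : ρ ≤ r) {s : C2 → ℂ}
    (hs : ∀ z ∈ ball (0 : C2) ρ, OSf v s z) {z : C2} (hz : z ∈ ball (0 : C2) ρ) :
    ∃ l : C2 → ℂ, ∀ᶠ w in 𝓝 z, ContDiffAt ℝ ∞ l w ∧ Complex.exp (l w) = (v z * s) w ∧
      ((v w * s) w)⁻¹ • dbar (v w * s) w = dbar l w := by
  have hz' := ball_subset_ball h2 hz
  have h0 : (v z * s) z ≠ 0 := mul_ne_zero (hv.ne hz').self_of_nhds (hs z hz).1
  have h1 := ((hs z hz).2.self_of_nhds.continuousAt.eventually_ne h0).and (hs z hz).2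
  obtain ⟨δ, hδ, h3⟩ := Metric.eventually_nhds_iff_ball.1 h1
  obtain ⟨l, hl⟩ := o_log isOpen_ball (convex_ball z δ) h3
  refine ⟨l, ?_⟩
  filter_upwards [ball_mem_nhds z hδ, isOpen_ball.mem_nhds hz, hv z hz'] with w w1 w2 w3
  refine ⟨(hl w w1).1, (hl w w1).2, ?_⟩
  have hw := hv.ne (ball_subset_ball h2 w2)
  have hG : DifferentiableAt ℝ (v w * s) w := (hs w w2).2.self_of_nhds.differentiableAt (by simp)
  have e1 : v z * s =ᶠ[𝓝 w] (v z / v w) * (v w * s) := by
    filter_upwards [hw] with x hx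
    simp only [Pi.mul_apply, Pi.div_apply]
    field_simp
  have e2 : v z * s =ᶠ[𝓝 w] fun x => Complex.exp (l x) := by
    filter_upwards [isOpen_ball.mem_nhds w1] with x hx
    exact (hl x hx).2.symm
  have e3 := dbar_congr' e1
  rw [dbar_congr' e2, OD_exp ((hl w w1).1.differentiableAt (by simp)),
    dbar_mul' (w3.2.differentiableAt.restrictScalars ℝ) hG, dbar_hol' w3.2.differentiableAt,
    (hl w w1).2, e1.self_of_nhds, Pi.mul_apply] at e3
  have a0 : (v z / v w) w ≠ 0 := div_ne_zero w3.1 hw.self_of_nhds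
  have g0 : (v w * s) w ≠ 0 := mul_ne_zero hw.self_of_nhds (hs w w2).1
  ext1 x
  have e4 := DFunLike.congr_fun e3 x
  simp only [ContinuousLinearMap.smul_apply, ContinuousLinearMap.add_apply,
    ContinuousLinearMap.zero_apply, smul_eq_mul, mul_zero, add_zero] at e4 ⊢
  rw [mul_assoc] at e4
  rw [← mul_left_cancel₀ a0 e4, inv_mul_cancel_left₀ g0]

theorem OBun.hol (hv : OBun v r) {ρ ρ' : ℝ} (h0 : 0 < ρ') (h1 : ρ' < ρ) (h2 : ρ ≤ r)
    {s : C2 → ℂ} (hs : ∀ z ∈ ball (0 : C2) ρ, OSf v s z) :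
    ∃ s', ∀ z ∈ ball (0 : C2) ρ', OHf v s' z := by
  obtain ⟨K, -, hK⟩ := dol h0 h1
  obtain ⟨u, hu, hd, -⟩ := hK 0 (fun w => ((v w * s) w)⁻¹ • dbar (v w * s) w)
    (fun z _ => (anti_dbar _ z).smul _)
    (fun j z hz => by
      obtain ⟨l, hl⟩ := OD_loc hv h2 hs hz
      refine (dbar_sm_apply hl.self_of_nhds.1 (ee j)).congr_of_eventuallyEq ?_
      filter_upwards [hl] with w hw
      rw [hw.2.2])
    (fun z hz => by
      obtain ⟨l, hl⟩ := OD_loc hv h2 hs hz
      have e : ∀ j, (fun w => (((v w * s) w)⁻¹ • dbar (v w * s) w) (ee j)) =ᶠ[𝓝 z]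
          fun w => dbar l w (ee j) := fun j => by
        filter_upwards [hl] with w hw
        rw [hw.2.2]
      rw [dbar_congr' (e 1), dbar_congr' (e 0)]
      exact dbar_dbar hl.self_of_nhds.1)
  refine ⟨s * fun w => Complex.exp (-u w), fun z hz => ?_⟩
  have hz' := ball_subset_ball h1.le hz
  obtain ⟨l, hl⟩ := OD_loc hv h2 hs hz'
  refine ⟨mul_ne_zero (hs z hz').1 (Complex.exp_ne_zero _), ?_⟩
  have ha : AnalyticAt ℂ (l - u) z := by
    refine analyticAt_of_dbar (hl.mono fun w hw => hw.1.sub hu.contDiffAt) ?_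
    filter_upwards [hl, isOpen_ball.mem_nhds hz] with w hw w1
    rw [dbar_sub' (hw.1.differentiableAt (by simp)) (hu.differentiable (by simp) w), hd w w1,
      hw.2.2, sub_self]
  refine ha.cexp.congr ?_
  filter_upwards [hl] with w hw
  have e := hw.2.1
  simp only [Pi.mul_apply, Pi.sub_apply, Function.comp_apply] at e ⊢
  rw [sub_eq_add_neg, Complex.exp_add, e, mul_assoc]

end Vale.Agent.P267
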