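import Vale.Agent.P267O.OA
import Vale.Agent.P267O.OE

/-! P267, frames on polydiscs: the limit. -/

open scoped Topology ContDiff
open Filter Metric Set

noncomputable section

namespace Vale.Agent.P267

variable {v : C2 → C2 → ℂ} {r : ℝ}

/-- One step of the approximation. -/
theorem OF_step (hv : OBun v r) {a b c : ℝ} (hab : a < b) (hbc : b ≤ c) (hcr : c ≤ r) {ε : ℝ}
    (hε : 0 < ε) {σ s : C2 → ℂ} (hσ : ∀ z ∈ ball (0 : C2) c, OHf v σ z)
    (hs : ∀ z ∈ ball (0 : C2) b, OHf v s z) :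
    ∃ s' e : C2 → ℂ, (∀ z ∈ ball (0 : C2) c, OHf v s' z) ∧
      (∀ z ∈ ball (0 : C2) b, AnalyticAt ℂ e z ∧ s' z = s z * Complex.exp (e z)) ∧
      ∀ z ∈ ball (0 : C2) a, ‖e z‖ ≤ ε := by
  have hsub : ball (0 : C2) b ⊆ ball 0 c := ball_subset_ball hbc
  have hsub' : ball (0 : C2) b ⊆ ball 0 r := ball_subset_ball (hbc.trans hcr)
  obtain ⟨l, hl⟩ := o_hlog (f := s / σ) (W := ball (0 : C2) b) isOpen_ball (convex_ball _ _)
    (fun w hw => ⟨div_ne_zero (hs w hw).1 (hσ w (hsub hw)).1,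
      OHf.ratio hv (hsub' hw) (hσ w (hsub hw)) (hs w hw)⟩)
  obtain ⟨g, hg, hg'⟩ := o_runge (h := l) hab hε (fun z hz => (hl z hz).1)
  refine ⟨σ * fun w => Complex.exp (g w), fun w => g w - l w, fun z hz => ?_, fun z hz => ⟨?_, ?_⟩,
    fun z hz => ?_⟩
  · exact (hσ z hz).mul (Complex.exp_ne_zero _) (hg z).cexp
  · exact (hg z).sub (hl z hz).1
  · have h1 := (hl z hz).2
    have h2 := (hσ z (hsub hz)).1
    have h3 := (hs z hz).1
    simp only [Pi.mul_apply, Pi.div_apply] at h1 ⊢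
    rw [Complex.exp_sub, h1]
    field_simp
  · rw [norm_sub_rev]
    exact hg' z hz

/-- The limit along an exhaustion by balls. -/
theorem OF_lim (hv : OBun v r) {ρ : ℕ → ℝ} (hm : StrictMono ρ) (hr : ∀ k, ρ k ≤ r)
    (hex : ∀ z ∈ ball (0 : C2) r, ∃ k, z ∈ ball (0 : C2) (ρ k))
    (h : ∀ k, ∃ s, ∀ z ∈ ball (0 : C2) (ρ k), OHf v s z) :
    ∃ s, ∀ z ∈ ball (0 : C2) r, OHf v s z := by
  choose σ hσ using h
  have step : ∀ (k : ℕ) (s : {s : C2 → ℂ // ∀ z ∈ ball (0 : C2) (ρ (k + 1)), OHf v s z}),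
      ∃ s' e : C2 → ℂ, (∀ z ∈ ball (0 : C2) (ρ (k + 1 + 1)), OHf v s' z) ∧
        (∀ z ∈ ball (0 : C2) (ρ (k + 1)),
          AnalyticAt ℂ e z ∧ s' z = s.1 z * Complex.exp (e z)) ∧
        ∀ z ∈ ball (0 : C2) (ρ k), ‖e z‖ ≤ (1 / 2 : ℝ) ^ k := fun k s =>
    OF_step hv (hm (Nat.lt_succ_self k)) (hm (Nat.lt_succ_self (k + 1))).le (hr _)
      (by positivity) (hσ (k + 1 + 1)) s.2
  choose F E hF hE hb using step
  let s : ∀ k : ℕ, {s : C2 → ℂ // ∀ z ∈ ball (0 : C2) (ρ (k + 1)), OHf v s z} :=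
    fun k => Nat.rec (motive := fun k =>
      {s : C2 → ℂ // ∀ z ∈ ball (0 : C2) (ρ (k + 1)), OHf v s z}) ⟨σ 1, hσ 1⟩
      (fun k t => ⟨F k t, hF k t⟩) k
  have hsucc : ∀ k, (s (k + 1)).1 = F k (s k) := fun k => rfl
  let e : ℕ → C2 → ℂ := fun k => E k (s k)
  have hsub : ∀ {k m : ℕ}, k ≤ m → ball (0 : C2) (ρ k) ⊆ ball 0 (ρ m) :=
    fun hkm => ball_subset_ball (hm.monotone hkm)
  have hsum : ∀ k : ℕ, Summable (fun j : ℕ => (1 / 2 : ℝ) ^ (k + j)) := fun k => by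
    simp only [pow_add]
    exact summable_geometric_two.mul_left _
  have he : ∀ k j : ℕ, ∀ z ∈ ball (0 : C2) (ρ k),
      AnalyticAt ℂ (e (k + j)) z ∧ ‖e (k + j) z‖ ≤ (1 / 2 : ℝ) ^ (k + j) := fun k j z hz =>
    ⟨(hE (k + j) (s (k + j)) z (hsub (by omega) hz)).1,
      hb (k + j) (s (k + j)) z (hsub (by omega) hz)⟩
  let A : ℕ → C2 → ℂ := fun k => (s k).1 * fun w => Complex.exp (∑' j, e (k + j) w)
  have hA : ∀ k, ∀ z ∈ ball (0 : C2) (ρ k), A k z = A (k + 1) z := fun k z hz => by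
    have h1 : Summable (fun j : ℕ => e (k + j) z) :=
      Summable.of_norm_bounded (hsum k) (fun j => (he k j z hz).2)
    have h2 : ∑' j, e (k + j) z = e k z + ∑' j, e (k + 1 + j) z := by
      rw [h1.tsum_eq_zero_add]
      refine congrArg (fun t => e k z + t) (tsum_congr fun j => ?_)
      rw [show k + (j + 1) = k + 1 + j by omega]
    have h3 := (hE k (s k) z (hsub (Nat.le_succ k) hz)).2
    show (s k).1 z * Complex.exp (∑' j, e (k + j) z) =
      (s (k + 1)).1 z * Complex.exp (∑' j, e (k + 1 + j) z)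
    rw [hsucc, h3, h2, Complex.exp_add, mul_assoc]
  have hA' : ∀ k m, k ≤ m → ∀ z ∈ ball (0 : C2) (ρ k), A k z = A m z := fun k m hkm z hz => by
    induction m, hkm using Nat.le_induction with
    | base => rfl
    | succ m hkm ih => rw [ih, hA m z (hsub hkm hz)]
  have hn : ∀ z : C2, ∃ k, z ∈ ball (0 : C2) r → z ∈ ball (0 : C2) (ρ k) := fun z => by
    by_cases hz : z ∈ ball (0 : C2) r
    · obtain ⟨k, hk⟩ := hex z hz
      exact ⟨k, fun _ => hk⟩
    · exact ⟨0, fun h => absurd h hz⟩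
  choose n hn using hn
  refine ⟨fun z => A (n z) z, fun z hz => ?_⟩
  obtain ⟨k, hk⟩ := hex z hz
  have h1 : OHf v (A k) z :=
    ((s k).2 z (hsub (Nat.le_succ k) hk)).mul (Complex.exp_ne_zero _)
      (o_tsum isOpen_ball (hsum k) (he k) z hk).cexp
  refine h1.congr ?_
  filter_upwards [isOpen_ball.mem_nhds hk] with w hw
  have hwr : w ∈ ball (0 : C2) r := ball_subset_ball (hr k) hw
  rw [hA' k (max k (n w)) (le_max_left _ _) w hw,
    hA' (n w) (max k (n w)) (le_max_right _ _) w (hn w hwr)]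

theorem OBun.lim (hv : OBun v r)
    (h : ∀ ρ < r, ∃ s, ∀ z ∈ ball (0 : C2) ρ, OHf v s z) :
    ∃ s, ∀ z ∈ ball (0 : C2) r, OHf v s z := by
  rcases le_or_gt r 0 with hr | hr
  · refine ⟨0, fun z hz => ?_⟩
    rw [ball_eq_empty.2 hr] at hz
    exact absurd hz (notMem_empty z)
  have hpos : ∀ k : ℕ, 0 < r / ((k : ℝ) + 1) := fun k => by positivity
  refine OF_lim hv (ρ := fun k : ℕ => r - r / ((k : ℝ) + 1)) ?_ ?_ ?_ ?_
  · refine strictMono_nat_of_lt_succ fun k => ?_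
    have h1 : r / (((k + 1 : ℕ) : ℝ) + 1) < r / ((k : ℝ) + 1) := by
      apply div_lt_div_of_pos_left hr (by positivity)
      push_cast
      linarith
    linarith
  · intro k
    have := hpos k
    linarith
  · intro z hz
    rw [mem_ball_zero_iff] at hz
    have hd : 0 < r - ‖z‖ := by linarith
    obtain ⟨k, hk⟩ := exists_nat_gt (r / (r - ‖z‖))
    refine ⟨k, ?_⟩
    rw [mem_ball_zero_iff]
    have h1 : r / ((k : ℝ) + 1) < r - ‖z‖ := by
      rw [div_lt_iff₀ (by positivity)]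
      rw [div_lt_iff₀ hd] at hk
      nlinarith
    linarith
  · intro k
    have := hpos k
    exact h _ (by linarith)

end Vale.Agent.P267
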