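import Vale.Agent.P267O.OC
import Vale.Agent.P267O.OD
import Vale.Agent.P267O.OF
import Vale.Agent.P267.Stmt2

/-! P267, frames on polydiscs: the theorem. -/

open scoped Topology ContDiff
open Filter Metric Set

noncomputable section

namespace Vale.Agent.P267

theorem OBun.oka {v : C2 → C2 → ℂ} {r : ℝ} (hv : OBun v r) :
    ∃ s, ∀ z ∈ ball (0 : C2) r, OHf v s z := by
  refine hv.lim fun ρ hρ => ?_
  rcases le_or_gt ρ 0 with h0 | h0
  · exact ⟨0, fun z hz => absurd ((norm_nonneg z).trans_lt (mem_ball_zero_iff.1 hz)) h0.not_gt⟩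
  obtain ⟨s, hs⟩ := hv.smooth (isCompact_closedBall 0 ((ρ + r) / 2)) (convex_closedBall _ _)
    (closedBall_subset_ball (by linarith))
  exact hv.hol h0 (by linarith : ρ < (ρ + r) / 2) (by linarith) fun z hz =>
    hs z (ball_subset_closedBall hz)

theorem oka_frame {M : Type} [TopologicalSpace M] [ChartedSpace C2 M] {u : M → M → ℂ}
    (hu : IsBundle HolAt u) {P : OpenPartialHomeomorph M C2} {r : ℝ} (hP : HolChart P)
    (ht : P.target = ball 0 r) : ∃ s : M → ℂ, ∀ p ∈ P.source, s p ≠ 0 ∧ HolAt (u p * s) p := by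
  have hv : OBun (fun z w => u (P.symm z) (P.symm w)) r := fun z hz => by
    rw [← ht] at hz
    filter_upwards [(P.continuousAt_symm hz).eventually (hu (P.symm z)),
      P.open_target.mem_nhds hz] with w h1 h2
    refine ⟨h1.1, ?_⟩
    have h3 := (hP _ (P.map_target h2) _).1 h1.2
    rwa [P.right_inv h2] at h3
  obtain ⟨s, hs⟩ := hv.oka
  refine ⟨s ∘ P, fun p hp => ?_⟩
  have h1 := hs (P p) (ht ▸ P.map_source hp)
  refine ⟨h1.1, (hP p hp _).2 (h1.2.congr ?_)⟩
  filter_upwards [P.open_target.mem_nhds (P.map_source hp)] with w hw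
  simp only [Pi.mul_apply, Function.comp_apply, P.left_inv hp, P.right_inv hw]

end Vale.Agent.P267
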