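import Vale.Agent.P267S.Dol

/-! P267, frames on polydiscs: definitions. -/

open scoped Topology ContDiff
open Filter Metric Set

noncomputable section

namespace Vale.Agent.P267

/-- A holomorphic line bundle on a polydisc. -/
def OBun (v : C2 → C2 → ℂ) (r : ℝ) : Prop :=
  ∀ z ∈ ball (0 : C2) r, ∀ᶠ w in 𝓝 z, v z w ≠ 0 ∧ AnalyticAt ℂ (v z / v w) w

/-- A smooth frame near `z`. -/
def OSf (v : C2 → C2 → ℂ) (s : C2 → ℂ) (z : C2) : Prop :=
  s z ≠ 0 ∧ ∀ᶠ w in 𝓝 z, ContDiffAt ℝ ∞ (v z * s) w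

/-- A holomorphic frame near `z`. -/
def OHf (v : C2 → C2 → ℂ) (s : C2 → ℂ) (z : C2) : Prop :=
  s z ≠ 0 ∧ AnalyticAt ℂ (v z * s) z

end Vale.Agent.P267
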