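import Vale.Agent.P267O.Defs

/-! P267, frames on polydiscs: calculus. -/

open scoped Topology ContDiff
open Filter Metric Set

noncomputable section

namespace Vale.Agent.P267

variable {v : C2 → C2 → ℂ} {r : ℝ} {s s' f : C2 → ℂ} {z : C2}

theorem OBun.ne (h : OBun v r) (hz : z ∈ ball (0 : C2) r) : ∀ᶠ w in 𝓝 z, v z w ≠ 0 :=
  (h z hz).mono fun _ a => a.1

theorem OBun.loc (h : OBun v r) (hz : z ∈ ball (0 : C2) r) : OHf v (v z)⁻¹ z :=
  ⟨inv_ne_zero (h.ne hz).self_of_nhds, (analyticAt_const (v := (1 : ℂ))).congr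
    ((h.ne hz).mono fun _ a => (mul_inv_cancel₀ a).symm)⟩

theorem OHf.oSf (h : OHf v s z) : OSf v s z :=
  ⟨h.1, h.2.eventually_analyticAt.mono fun _ a => a.contDiffAt.restrict_scalars ℝ⟩

theorem OSf.congr (h : OSf v s z) (e : s =ᶠ[𝓝 z] s') : OSf v s' z := by
  refine ⟨e.self_of_nhds ▸ h.1, ?_⟩
  filter_upwards [h.2, e.eventuallyEq_nhds] with w a b
  exact a.congr_of_eventuallyEq (b.mono fun x hx => by simp only [Pi.mul_apply, hx])

theorem OHf.congr (h : OHf v s z) (e : s =ᶠ[𝓝 z] s') : OHf v s' z :=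
  ⟨e.self_of_nhds ▸ h.1, h.2.congr (e.mono fun x hx => by simp only [Pi.mul_apply, hx])⟩

theorem OA_ne (hv : OBun v r) (hz : z ∈ ball (0 : C2) r) (h : OSf v s z) :
    ∀ᶠ w in 𝓝 z, (v z * s) w ≠ 0 :=
  h.2.self_of_nhds.continuousAt.eventually_ne (mul_ne_zero (hv.ne hz).self_of_nhds h.1)

theorem OSf.ev (hv : OBun v r) (hz : z ∈ ball (0 : C2) r) (h : OSf v s z) :
    ∀ᶠ w in 𝓝 z, OSf v s w := by
  filter_upwards [isOpen_ball.mem_nhds hz, hv z hz, (hv.ne hz).eventually_nhds,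
    h.2.eventually_nhds, OA_ne hv hz h] with w a1 a2 a3 a4 a5
  refine ⟨right_ne_zero_of_mul a5, ?_⟩
  filter_upwards [a2.2.eventually_analyticAt, a3.eventually_nhds, (hv.ne a1).eventually_nhds, a4]
    with x b1 b2 b3 b4
  refine (b4.mul ((b1.contDiffAt.restrict_scalars ℝ).inv
    (div_ne_zero b2.self_of_nhds b3.self_of_nhds))).congr_of_eventuallyEq ?_
  filter_upwards [b2, b3] with y c1 c2
  simp only [Pi.mul_apply, Pi.div_apply, Pi.inv_apply]
  field_simp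

theorem OSf.ratio (hv : OBun v r) (hz : z ∈ ball (0 : C2) r) (h : OSf v s z) (h' : OSf v s' z) :
    ∀ᶠ w in 𝓝 z, ContDiffAt ℝ ∞ (s' / s) w := by
  filter_upwards [(hv.ne hz).eventually_nhds, h.2, h'.2, OA_ne hv hz h] with w a1 a2 a3 a4
  refine (a3.mul (a2.inv a4)).congr_of_eventuallyEq ?_
  filter_upwards [a1] with y c1
  exact (mul_div_mul_left _ _ c1).symm

theorem OHf.ratio (hv : OBun v r) (hz : z ∈ ball (0 : C2) r) (h : OHf v s z) (h' : OHf v s' z) :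
    AnalyticAt ℂ (s' / s) z := by
  refine (h'.2.div h.2 (mul_ne_zero (hv.ne hz).self_of_nhds h.1)).congr ?_
  filter_upwards [hv.ne hz] with y c1
  exact mul_div_mul_left _ _ c1

theorem OSf.mul (h : OSf v s z) (h0 : f z ≠ 0) (hf : ∀ᶠ w in 𝓝 z, ContDiffAt ℝ ∞ f w) :
    OSf v (s * f) z := by
  refine ⟨mul_ne_zero h.1 h0, ?_⟩
  filter_upwards [h.2, hf] with w a b
  rw [← mul_assoc]
  exact a.mul b

theorem OHf.mul (h : OHf v s z) (h0 : f z ≠ 0) (hf : AnalyticAt ℂ f z) : OHf v (s * f) z := by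
  refine ⟨mul_ne_zero h.1 h0, ?_⟩
  rw [← mul_assoc]
  exact h.2.mul hf

theorem OA_log {W : Set C2} (hW : IsOpen W) (hc : Convex ℝ W)
    (hf : ∀ w ∈ W, f w ≠ 0 ∧ ContinuousAt f w) : ∃ l : C2 → ℂ, ∀ w ∈ W, Complex.exp (l w) = f w ∧
      l =ᶠ[𝓝 w] fun x => l w + Complex.log (f x / f w) := by
  rcases W.eq_empty_or_nonempty with rfl | hne
  · exact ⟨0, fun _ h => h.elim⟩
  have hcon : ContractibleSpace W := hc.contractibleSpace hne
  have hsc : IsSimplyConnected W := (inferInstance : SimplyConnectedSpace W)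
  obtain ⟨l, hl, he⟩ := Complex.exists_continuousOn_eqOn_exp_comp hsc hW (g := f)
    (fun w hw => (hf w hw).2.continuousWithinAt) (by
      rintro ⟨z, hz, hz0⟩
      exact (hf z hz).1 hz0)
  refine ⟨l, fun w hw => ⟨he hw, ?_⟩⟩
  filter_upwards [hW.mem_nhds hw, (hl.continuousAt (hW.mem_nhds hw)).eventually
    (ball_mem_nhds _ Real.pi_pos)] with x a b
  have c := abs_lt.1 ((Complex.abs_im_le_norm _).trans_lt (mem_ball_iff_norm.1 b))
  rw [← he a, ← he hw, Function.comp_apply, Function.comp_apply, ← Complex.exp_sub,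
    Complex.log_exp c.1 c.2.le, add_sub_cancel]

/-- The smooth logarithm on a convex open set. -/
theorem o_log {W : Set C2} (hW : IsOpen W) (hc : Convex ℝ W)
    (hf : ∀ w ∈ W, f w ≠ 0 ∧ ContDiffAt ℝ ∞ f w) :
    ∃ l : C2 → ℂ, ∀ w ∈ W, ContDiffAt ℝ ∞ l w ∧ Complex.exp (l w) = f w := by
  obtain ⟨l, hl⟩ := OA_log hW hc fun w hw => ⟨(hf w hw).1, (hf w hw).2.continuousAt⟩
  refine ⟨l, fun w hw => ⟨?_, (hl w hw).1⟩⟩
  have a : ContDiffAt ℝ ∞ Complex.log (f w / f w) :=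
    (Complex.contDiffAt_log (by simp [(hf w hw).1])).restrict_scalars ℝ
  exact (contDiffAt_const.add (ContDiffAt.comp (f := fun x => f x / f w) w a
    ((hf w hw).2.div_const _))).congr_of_eventuallyEq (hl w hw).2

/-- The holomorphic logarithm on a convex open set. -/
theorem o_hlog {W : Set C2} (hW : IsOpen W) (hc : Convex ℝ W)
    (hf : ∀ w ∈ W, f w ≠ 0 ∧ AnalyticAt ℂ f w) :
    ∃ l : C2 → ℂ, ∀ w ∈ W, AnalyticAt ℂ l w ∧ Complex.exp (l w) = f w := by
  obtain ⟨l, hl⟩ := OA_log hW hc fun w hw => ⟨(hf w hw).1, (hf w hw).2.continuousAt⟩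
  refine ⟨l, fun w hw => ⟨?_, (hl w hw).1⟩⟩
  exact (analyticAt_const.add (((hf w hw).2.div_const (c := f w)).clog
    (by simp [(hf w hw).1]))).congr (hl w hw).2.symm

end Vale.Agent.P267
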