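import Vale.Agent.P267O.OA

/-! P267, frames on polydiscs: gluing. -/

open scoped Topology ContDiff
open Filter Metric Set

noncomputable section

namespace Vale.Agent.P267

variable {v : C2 → C2 → ℂ} {r : ℝ} {K : Set C2}

theorem OBun.glue (hv : OBun v r) (hK : IsCompact K) (hc : Convex ℝ K)
    (hr : K ⊆ ball (0 : C2) r) (l : C2 →L[ℝ] ℝ) (c : ℝ)
    (h1 : ∃ s, ∀ z ∈ K, l z ≤ c → OSf v s z) (h2 : ∃ s, ∀ z ∈ K, c ≤ l z → OSf v s z) :
    ∃ s, ∀ z ∈ K, OSf v s z := by
  obtain ⟨s1, h1⟩ := h1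
  obtain ⟨s2, h2⟩ := h2
  have hK0 : IsCompact (K ∩ {z | l z = c}) :=
    hK.inter_right (isClosed_eq l.continuous continuous_const)
  have hc0 : Convex ℝ (K ∩ {z | l z = c}) :=
    hc.inter ((convex_singleton c).linear_preimage (l : C2 →ₗ[ℝ] ℝ))
  obtain ⟨δ, hδ, hW⟩ := hK0.exists_thickening_subset_open
    (t := interior {w | w ∈ ball (0 : C2) r ∧ OSf v s1 w ∧ OSf v s2 w}) isOpen_interior
    fun z hz => mem_interior_iff_mem_nhds.2 ((isOpen_ball.eventually_mem (hr hz.1)).and
      (((h1 z hz.1 hz.2.le).ev hv (hr hz.1)).and ((h2 z hz.1 hz.2.ge).ev hv (hr hz.1))))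
  have hA : ∀ w ∈ thickening δ (K ∩ {z | l z = c}),
      w ∈ ball (0 : C2) r ∧ OSf v s1 w ∧ OSf v s2 w := fun w hw => (hW.trans interior_subset) hw
  obtain ⟨lam, hl⟩ := o_log (f := s2 / s1) isOpen_thickening (hc0.thickening δ) fun w hw =>
    ⟨div_ne_zero (hA w hw).2.2.1 (hA w hw).2.1.1,
      ((hA w hw).2.1.ratio hv (hA w hw).1 (hA w hw).2.2).self_of_nhds⟩
  obtain ⟨ε, hε, he⟩ := (hK.diff (isOpen_thickening (δ := δ)
    (E := K ∩ {z | l z = c}))).exists_forall_le' (f := fun z => |l z - c|) (a := 0)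
    (l.continuous.sub continuous_const).abs.continuousOn fun z hz =>
      abs_pos.2 fun e => hz.2 (self_subset_thickening hδ _ ⟨hz.1, sub_eq_zero.1 e⟩)
  obtain ⟨χ, hχ, χ0, χ1⟩ : ∃ χ : C2 → ℝ, ContDiff ℝ ∞ χ ∧ (∀ w, l w ≤ c - 3 * ε / 4 → χ w = 0) ∧
      ∀ w, c - ε / 2 ≤ l w → χ w = 1 := by
    refine ⟨fun w => Real.smoothTransition ((l w - c + 3 * ε / 4) / (ε / 4)),
      Real.smoothTransition.contDiff.comp
        (((l.contDiff.sub contDiff_const).add contDiff_const).div_const _),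
      fun w hw => Real.smoothTransition.zero_of_nonpos
        (div_nonpos_of_nonpos_of_nonneg (by linarith) (by linarith)),
      fun w hw => Real.smoothTransition.one_of_one_le ?_⟩
    rw [le_div_iff₀ (by linarith)]
    linarith
  refine ⟨fun w => if l w < c - ε / 4 then s1 w * Complex.exp (χ w * lam w) else s2 w,
    fun z hz => ?_⟩
  rcases lt_or_ge (l z) (c - 3 * ε / 4) with a | a
  · refine (h1 z hz (by linarith)).congr ?_
    filter_upwards [(isOpen_lt l.continuous continuous_const).eventually_mem a] with w hw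
    have hw' : l w < c - 3 * ε / 4 := hw
    rw [if_pos (by linarith), χ0 w hw'.le]
    simp
  rcases lt_or_ge c (l z) with b | b
  · refine (h2 z hz b.le).congr ?_
    filter_upwards [(isOpen_lt continuous_const l.continuous).eventually_mem b] with w hw
    have hw' : c < l w := hw
    rw [if_neg (by linarith)]
  have hzW : z ∈ thickening δ (K ∩ {z | l z = c}) := by
    by_contra n
    have := he z ⟨hz, n⟩
    rw [abs_of_nonpos (by linarith)] at this
    linarith
  have ev := isOpen_thickening.eventually_mem hzW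
  refine ((h1 z hz b).mul (f := fun w => Complex.exp (χ w * lam w)) (Complex.exp_ne_zero _)
    (ev.mono fun w hw => ((Complex.ofRealCLM.contDiff.comp hχ).contDiffAt.mul
      (hl w hw).1).cexp)).congr (ev.mono fun w hw => ?_)
  by_cases d : l w < c - ε / 4
  · simp only [if_pos d, Pi.mul_apply]
  · simp only [if_neg d, Pi.mul_apply]
    rw [χ1 w (by linarith [not_lt.1 d]), Complex.ofReal_one, one_mul, (hl w hw).2, Pi.div_apply,
      mul_div_cancel₀ _ (hA w hw).2.1.1]

end Vale.Agent.P267
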