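import Vale.Agent.P267O.OB

/-! P267, frames on polydiscs: slices. -/

open scoped Topology ContDiff
open Filter Metric Set

noncomputable section

namespace Vale.Agent.P267

variable {v : C2 → C2 → ℂ} {r : ℝ} {K : Set C2}

theorem OC_near (hv : OBun v r) (hK : IsCompact K) (hr : K ⊆ ball (0 : C2) r)
    (l : C2 →L[ℝ] ℝ) (c : ℝ) (h : ∃ s, ∀ z ∈ K, l z = c → OSf v s z) :
    ∃ ε > 0, ∃ s, ∀ z ∈ K, c - ε ≤ l z → l z ≤ c + ε → OSf v s z := by
  obtain ⟨s, hs⟩ := h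
  have h1 : IsCompact (l '' (K \ interior {w | OSf v s w})) :=
    (hK.diff isOpen_interior).image l.continuous
  have h2 : c ∈ (l '' (K \ interior {w | OSf v s w}))ᶜ := by
    rintro ⟨z, ⟨hz, hz'⟩, hzc⟩
    exact hz' (mem_interior_iff_mem_nhds.2 ((hs z hz hzc).ev hv (hr hz)))
  obtain ⟨ε, hε, hb⟩ := Metric.isOpen_iff.1 h1.isClosed.isOpen_compl c h2
  refine ⟨ε / 2, by positivity, s, fun z hz ha hb' => ?_⟩
  by_contra hn
  have h3 : l z ∈ ball c ε := by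
    rw [mem_ball, Real.dist_eq, abs_lt]
    constructor <;> linarith
  exact hb h3 ⟨z, ⟨hz, fun hi => hn (interior_subset (s := {w | OSf v s w}) hi)⟩, rfl⟩

theorem OC_cut (hK : IsCompact K) (hc : Convex ℝ K) (l : C2 →L[ℝ] ℝ) (c : ℝ) :
    IsCompact (K ∩ {z | l z = c}) ∧ Convex ℝ (K ∩ {z | l z = c}) :=
  ⟨hK.inter_right (isClosed_eq l.continuous continuous_const),
    hc.inter (convex_hyperplane l.toLinearMap.isLinear c)⟩

theorem OBun.slice (hv : OBun v r) (hK : IsCompact K) (hc : Convex ℝ K)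
    (hr : K ⊆ ball (0 : C2) r) (l : C2 →L[ℝ] ℝ)
    (h : ∀ c : ℝ, ∃ s, ∀ z ∈ K, l z = c → OSf v s z) : ∃ s, ∀ z ∈ K, OSf v s z := by
  set A : Set ℝ := {c | ∃ s, ∀ z ∈ K, l z ≤ c → OSf v s z} with hA
  have mono : ∀ a b : ℝ, a ≤ b → b ∈ A → a ∈ A := fun a b hab ⟨s, hs⟩ =>
    ⟨s, fun z hz hza => hs z hz (hza.trans hab)⟩
  have step : ∀ c : ℝ, ∃ ε > 0, c - ε ∈ A → c + ε ∈ A := by
    intro c
    obtain ⟨ε, hε, s, hs⟩ := OC_near hv hK hr l c (h c)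
    refine ⟨ε, hε, fun ⟨s', hs'⟩ => ?_⟩
    obtain ⟨t, ht⟩ := hv.glue (K := K ∩ {z | l z ≤ c + ε})
      (hK.inter_right (isClosed_le l.continuous continuous_const))
      (hc.inter (convex_halfSpace_le l.toLinearMap.isLinear _))
      (inter_subset_left.trans hr) l (c - ε) ⟨s', fun z hz => hs' z hz.1⟩
      ⟨s, fun z hz hz' => hs z hz.1 hz' hz.2⟩
    exact ⟨t, fun z hz hz' => ht z ⟨hz, hz'⟩⟩
  have hcl : IsClopen A := by
    constructor
    · rw [← isOpen_compl_iff, Metric.isOpen_iff]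
      intro c hcA
      obtain ⟨ε, hε, hs⟩ := step c
      refine ⟨ε, hε, fun b hb hbA => hcA ?_⟩
      rw [mem_ball, Real.dist_eq, abs_lt] at hb
      exact mono _ _ (by linarith) (hs (mono _ _ (by linarith) hbA))
    · rw [Metric.isOpen_iff]
      intro c hcA
      obtain ⟨ε, hε, hs⟩ := step c
      refine ⟨ε, hε, fun b hb => ?_⟩
      rw [mem_ball, Real.dist_eq, abs_lt] at hb
      exact mono _ _ (by linarith) (hs (mono _ _ (by linarith) hcA))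
  obtain ⟨a, ha⟩ := (hK.image l.continuous).bddBelow
  obtain ⟨b, hb⟩ := (hK.image l.continuous).bddAbove
  have hne : A.Nonempty := ⟨a - 1, 0, fun z hz hz' => by
    have := ha ⟨z, hz, rfl⟩
    linarith⟩
  have hb' : b ∈ A := by
    rw [hcl.eq_univ hne]
    trivial
  obtain ⟨s, hs⟩ := hb'
  exact ⟨s, fun z hz => hs z hz (hb ⟨z, hz, rfl⟩)⟩

theorem OBun.smooth (hv : OBun v r) (hK : IsCompact K) (hc : Convex ℝ K)
    (hr : K ⊆ ball (0 : C2) r) : ∃ s, ∀ z ∈ K, OSf v s z := by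
  let p : Fin 2 → C2 →L[ℝ] ℂ := fun i => ContinuousLinearMap.proj (R := ℝ) (φ := fun _ => ℂ) i
  have key : ∀ (K : Set C2) (l : C2 →L[ℝ] ℝ), IsCompact K → Convex ℝ K →
      K ⊆ ball (0 : C2) r → (∀ c : ℝ, IsCompact (K ∩ {z | l z = c}) →
        Convex ℝ (K ∩ {z | l z = c}) → K ∩ {z | l z = c} ⊆ ball (0 : C2) r →
          ∃ s, ∀ z ∈ K ∩ {z | l z = c}, OSf v s z) → ∃ s, ∀ z ∈ K, OSf v s z := by
    intro K l hK hc hr h
    refine hv.slice hK hc hr l fun c => ?_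
    obtain ⟨s, hs⟩ := h c (OC_cut hK hc l c).1 (OC_cut hK hc l c).2 (inter_subset_left.trans hr)
    exact ⟨s, fun z hz hz' => hs z ⟨hz, hz'⟩⟩
  refine key K (Complex.reCLM.comp (p 0)) hK hc hr fun a hK hc hr => ?_
  refine key _ (Complex.imCLM.comp (p 0)) hK hc hr fun b hK hc hr => ?_
  refine key _ (Complex.reCLM.comp (p 1)) hK hc hr fun c hK hc hr => ?_
  refine key _ (Complex.imCLM.comp (p 1)) hK hc hr fun d hK hc hr => ?_
  refine ⟨(v ![⟨a, b⟩, ⟨c, d⟩])⁻¹, fun z hz => ?_⟩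
  have e : z = ![⟨a, b⟩, ⟨c, d⟩] := by
    obtain ⟨⟨⟨⟨-, h1⟩, h2⟩, h3⟩, h4⟩ := hz
    funext i
    fin_cases i
    · exact Complex.ext h1 h2
    · exact Complex.ext h3 h4
  rw [← e]
  exact (hv.loc (hr hz)).oSf

end Vale.Agent.P267
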